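import Vale.Agent.P235.K5.H12.Int

set_option linter.all false

/-!
# Line SX, row [S6]: the mixture of the two cut metrics on the fine bags

`A` is known up to the trichotomy on the coarse bags, `N` captures the far pairs of the fine bags
of type `T`.  The mixture `(1 - k / 4) A + k / 4 N` keeps the same constant at every level.
-/

namespace Vale.Agent.P235.K5.SX.H964

open Vale.Agent.P235 Vale.Agent.P235.K5

/-- the mixture -/
noncomputable def mixF {V : Type} (k : ℝ) (A N : V → V → ℝ) (x y : V) : ℝ :=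
  (1 - k / 4) * A x y + k / 4 * N x y

theorem mixF_isL1 {V : Type} {k : ℝ} (hk : 0 ≤ k) (hk1 : k ≤ 4) {A N : V → V → ℝ}
    (hA : IsL1 A) (hN : IsL1 N) : IsL1 (mixF k A N) :=
  (hA.smul (by linarith)).add (hN.smul (by linarith))

theorem mixF_le {V : Type} {k : ℝ} (hk : 0 ≤ k) (hk1 : k ≤ 4) {A N d : V → V → ℝ}
    (hA : ∀ x y, A x y ≤ d x y) (hN : ∀ x y, N x y ≤ d x y) (x y : V) :
    mixF k A N x y ≤ d x y := by
  have h1 : (1 - k / 4) * A x y ≤ (1 - k / 4) * d x y :=
    mul_le_mul_of_nonneg_left (hA x y) (by linarith)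
  have h2 : k / 4 * N x y ≤ k / 4 * d x y := mul_le_mul_of_nonneg_left (hN x y) (by linarith)
  show (1 - k / 4) * A x y + k / 4 * N x y ≤ d x y
  linarith

/-- a root clique lies in an earlier fine bag -/
theorem earlier {w n n' : ℕ} {V : Type} {H' : SimpleGraph V} {B' : ℕ → Set V}
    (h' : Glued w H' n' B') (φ : ℕ → ℕ) (hφ : ∀ s s', s ≤ s' → s' < n' → φ s ≤ φ s')
    {t : ℕ} {C : Set V} (hC : ∀ u ∈ C, ∀ v ∈ C, u ≠ v → H'.Adj u v) (hne : C.Nonempty)
    (hcov : ∀ v ∈ C, ∃ s < n', φ s < t ∧ v ∈ B' s) :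
    ∃ s < n', φ s < t ∧ C ⊆ B' s := by
  classical
  have hex : ∃ m, m = n' ∨ t ≤ φ m := ⟨n', Or.inl rfl⟩
  set m := Nat.find hex with hm
  have hmn : m ≤ n' := Nat.find_min' hex (Or.inl rfl)
  have hlt : ∀ s < m, φ s < t := by
    intro s hs
    have := Nat.find_min hex hs
    push Not at this
    exact this.2
  have hin : ∀ s < n', φ s < t → s < m := by
    intro s hs hst
    by_contra hc
    rcases Nat.find_spec hex with h1 | h1
    · have h2 : m = n' := h1
      omega
    · have h2 : t ≤ φ m := h1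
      have h3 := hφ m s (by omega) hs
      omega
  have hsub : C ⊆ Bef B' m := by
    intro v hv
    obtain ⟨s, hs, h1, h2⟩ := hcov v hv
    exact ⟨s, hin s hs h1, h2⟩
  have hm0 : 0 < m := by
    obtain ⟨v, hv⟩ := hne
    obtain ⟨s, hs, _⟩ := hsub hv
    omega
  obtain ⟨s, hs, h1⟩ := h'.clique_in_bag hC m hm0 hmn hsub
  exact ⟨s, by omega, hlt s hs, h1⟩

/-- **Row [S6]: the mixture.**  The same constant at every level. -/
theorem mix {w0 w n n' : ℕ} {V : Type} {H H' : SimpleGraph V} {B B' : ℕ → Set V}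
    (h : Glued w0 H n B) (h' : Glued w H' n' B') (hle : H ≤ H') (φ : ℕ → ℕ)
    (hφ : ∀ s s', s ≤ s' → s' < n' → φ s ≤ φ s') (hφn : ∀ s < n', φ s < n)
    (hsub : ∀ s < n', B' s ⊆ B (φ s))
    (hcov : ∀ t < n, ∀ v ∈ B t, ∃ s < n', φ s ≤ t ∧ v ∈ B' s)
    (T : ℕ → Prop) {d A N : V → V → ℝ} (hd : IsMet d) (hA : IsL1 A) (hN : IsL1 N)
    (hN1 : ∀ x y, N x y ≤ d x y) {k cN : ℝ} (hk : 0 < k) (hk1 : k ≤ 1) (hcN : 0 < cN)
    (hTri : ∀ t < n, ∀ x ∈ B t, ∀ y ∈ B t, k * d x y ≤ A x y ∨
      (∃ r ∈ Adh B t, ∃ s ∈ Adh B t, A r s + k * (d x r + d y s) ≤ A x y) ∨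
      (T t ∧ ∀ r ∈ Adh B t, ∀ s ∈ Adh B t, k * d x y ≤ d x r + d y s))
    (hNT : ∀ s < n', T (φ s) → ∀ x ∈ B' s, ∀ y ∈ B' s, ∀ m : ℝ, m ≤ d x y →
      (∀ r ∈ Adh B (φ s), ∀ r' ∈ Adh B (φ s), m ≤ d x r + d y r') → cN * m ≤ N x y) :
    ∀ s < n', ∀ x ∈ B' s, ∀ y ∈ B' s,
      min (k / 2) (k / 4 * (cN * k)) * d x y ≤ mixF k A N x y := by
  set c : ℝ := min (k / 2) (k / 4 * (cN * k)) with hc
  have hc0 : 0 < c := lt_min (by positivity) (by positivity)
  have hc1 : c ≤ k / 2 := min_le_left _ _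
  have hc2 : c ≤ k / 4 * (cN * k) := min_le_right _ _
  have key : ∀ t : ℕ, ∀ s < n', φ s = t → ∀ x ∈ B' s, ∀ y ∈ B' s,
      c * d x y ≤ mixF k A N x y := by
    intro t
    induction t using Nat.strong_induction_on with
    | _ t ih =>
      intro s hs hst x hx y hy
      have htn : t < n := hst ▸ hφn s hs
      have hxB : x ∈ B t := hst ▸ hsub s hs hx
      have hyB : y ∈ B t := hst ▸ hsub s hs hy
      have hd0 : 0 ≤ d x y := hd.nonneg x y
      have hA0 := hA.nonneg x y
      have hN0 := hN.nonneg x y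
      have hcd : c * d x y ≤ k / 2 * d x y := mul_le_mul_of_nonneg_right hc1 hd0
      show c * d x y ≤ (1 - k / 4) * A x y + k / 4 * N x y
      rcases hTri t htn x hxB y hyB with h1 | ⟨r, hr, u, hu, h1⟩ | ⟨hT, h1⟩
      · have h2 : (1 - k / 4) * (k * d x y) ≤ (1 - k / 4) * A x y :=
          mul_le_mul_of_nonneg_left h1 (by linarith)
        have h3 : k / 2 * d x y ≤ (1 - k / 4) * (k * d x y) := by
          have : 0 ≤ (1 / 2 - k / 4) * (k * d x y) :=
            mul_nonneg (by linarith) (mul_nonneg hk.le hd0)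
          nlinarith
        have h4 : 0 ≤ k / 4 * N x y := mul_nonneg (by linarith) hN0
        linarith
      · -- the root clique lies in an earlier fine bag
        obtain ⟨s₁, hs₁, h2, h3⟩ := earlier h' φ hφ (n := n) (t := t) (C := Adh B t)
          (fun a ha b hb hab => hle (h.clique t htn a ha b hb hab)) ⟨r, hr⟩ (by
            intro v hv
            obtain ⟨t₀, ht₀, hv₀⟩ := hv.2
            obtain ⟨s₀, hs₀, h4, h5⟩ := hcov t₀ (by omega) v hv₀
            exact ⟨s₀, hs₀, by omega, h5⟩)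
        have h4 : c * d r u ≤ (1 - k / 4) * A r u + k / 4 * N r u :=
          ih (φ s₁) h2 s₁ hs₁ rfl r (h3 hr) u (h3 hu)
        have h5 : N r u ≤ d x r + N x y + d y u := by
          have e1 := hN.tri r x u
          have e2 := hN.tri x y u
          have e3 := hN1 x r
          have e4 := hN1 y u
          have e5 := hN.symm r x
          linarith
        have h6 : (1 - k / 4) * (A r u + k * (d x r + d y u)) ≤ (1 - k / 4) * A x y :=
          mul_le_mul_of_nonneg_left h1 (by linarith)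
        have h7 : k / 4 * N r u ≤ k / 4 * (d x r + N x y + d y u) :=
          mul_le_mul_of_nonneg_left h5 (by linarith)
        have h8 : d x y ≤ d x r + d r u + d y u := by
          have e1 := hd.tri x r y
          have e2 := hd.tri r u y
          have e3 := hd.symm u y
          linarith
        have h9 : c * d x y ≤ c * (d x r + d r u + d y u) :=
          mul_le_mul_of_nonneg_left h8 hc0.le
        have h10 : 0 ≤ d x r + d y u := add_nonneg (hd.nonneg _ _) (hd.nonneg _ _)
        have h11 : c * (d x r + d y u) ≤ ((1 - k / 4) * k - k / 4) * (d x r + d y u) := by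
          refine mul_le_mul_of_nonneg_right ?_ h10
          nlinarith
        nlinarith
      · have h2 : cN * (k * d x y) ≤ N x y := by
          refine hNT s hs (hst ▸ hT) x hx y hy (k * d x y) ?_ ?_
          · nlinarith
          · intro r hr r' hr'
            rw [hst] at hr hr'
            exact h1 r hr r' hr'
        have h3 : k / 4 * (cN * (k * d x y)) ≤ k / 4 * N x y :=
          mul_le_mul_of_nonneg_left h2 (by linarith)
        have h4 : c * d x y ≤ k / 4 * (cN * k) * d x y := mul_le_mul_of_nonneg_right hc2 hd0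
        have h5 : 0 ≤ (1 - k / 4) * A x y := mul_nonneg (by linarith) hA0
        nlinarith
  intro s hs
  exact key (φ s) s hs rfl

end Vale.Agent.P235.K5.SX.H964
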