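import Vale.Agent.P235.K5.SX.Defs
import Vale.Agent.P235.K5.SX.H964.Mix

set_option linter.all false

namespace Vale.Agent.P235.K5.SX.H964

open Vale.Agent.P235 Vale.Agent.P235.K5

/-- **Row [S6] in the letters of `SX/Defs.lean`.** -/
theorem s6 : S6Stmt := by
  intro w V _ H n B T H' m C phi h hr d hd k cN hk hk1 hcN hcN1 A N hA hN hA1 hN1 hTri hNT
    s hs x hx y hy
  have h1 := mix h hr.glued hr.le phi (fun a b hab _ => hr.mono hab) hr.lt hr.sub hr.cov T hd hA
    hN hN1 hk hk1 hcN hTri hNT s hs x hx y hy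
  rw [← mul_assoc] at h1
  exact h1

end Vale.Agent.P235.K5.SX.H964
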